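import Vale.Agent.P200.G.Wd

/-! Cyclic extensions generated by an element with distinct conjugates. -/

open Finset Polynomial Matrix

namespace Vale.Agent.P200.H

open Vale.Agent.P200.G Vale.Agent.P200.Eq

universe u

/-- a cyclic extension of degree `A ≥ 3` generated by `a` -/
structure Cyc (F L : Type u) [Field F] [Field L] [Algebra F L] (A : ℕ) [NeZero A] where
  hA : 3 ≤ A
  inf : Infinite L
  σ : L ≃ₐ[F] L
  σ_pow_A : σ ^ A = 1
  a : L
  a_inj : Function.Injective fun j : Fin A => sg σ j a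
  bL : Module.Basis (Fin A) F L
  bL_eq : ∀ i, bL i = a ^ i.val

variable {A : ℕ} [NeZero A] {F L : Type u} [Field F] [Field L] [Algebra F L]

/-- the conjugates -/
def Cyc.pt (Z : Cyc F L A) (j : Fin A) : L := sg Z.σ j Z.a

/-- the conjugates in the function field -/
noncomputable def Cyc.ph (Z : Cyc F L A) (j : Fin A) : Kh A L := algebraMap L (Kh A L) (Z.pt j)

/-- the birational action of the shifts and of the Galois group -/
structure Raw (Z : Cyc F L A) where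
  ρ : (Fin A → ℤ) → (Kh A L ≃ₐ[L] Kh A L)
  B : (Fin A → ℕ) → Matrix (Fin A) (Fin A) (Kh A L)[X]
  s : Kh A L ≃ₐ[F] Kh A L
  ρ_add : ∀ e e', (A : ℤ) ∣ ∑ j, e j → (A : ℤ) ∣ ∑ j, e' j → ρ (e + e') = ρ e * ρ e'
  ρ_A : ρ (fun _ => A) = 1
  rel : ∀ d n, ∑ j, d j = A * n →
    Rel Z.ph (Phig A L) d n (B d) ((Phig A L).map (ρ fun j => d j))
  s_L : ∀ x, s (algebraMap L (Kh A L) x) = algebraMap L (Kh A L) (Z.σ x)
  s_Φ : ∀ j i c, s (Phig A L j i c) = Phig A L (j + 1) i (c + 1)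

variable (Z : Cyc F L A)

theorem Cyc.sg_zero (x : L) : sg Z.σ (0 : Fin A) x = x := by
  rw [sg, Fin.val_zero, pow_zero, AlgEquiv.one_apply]

theorem Cyc.sg_one (x : L) : sg Z.σ (1 : Fin A) x = Z.σ x := by
  rw [sg, Fin.val_one', ← pow_eq_pow_mod _ Z.σ_pow_A, pow_one]

theorem Cyc.sg_add (h h' : Fin A) (x : L) : sg Z.σ (h + h') x = sg Z.σ h (sg Z.σ h' x) := by
  rw [sg, pow_val_add Z.σ_pow_A, AlgEquiv.mul_apply, sg, sg]

theorem Cyc.sg_pt (h j : Fin A) : sg Z.σ h (Z.pt j) = Z.pt (j + h) := by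
  rw [Cyc.pt, Cyc.pt, add_comm, Z.sg_add]

theorem Cyc.pt_inj : Function.Injective Z.pt := Z.a_inj

theorem Cyc.ph_inj : Function.Injective Z.ph := (algebraMap L (Kh A L)).injective.comp Z.pt_inj

theorem Cyc.sg_cc (h j c : Fin A) : sg Z.σ h (cc Z.pt j c) = cc Z.pt (j + h) (c + h) := by
  unfold cc
  by_cases e : c = j
  · rw [if_pos e, if_pos (by rw [e]), map_prod]
    refine prod_congr rfl fun i _ => ?_
    rw [map_sub, Z.sg_pt, Z.sg_pt, add_right_comm]
  · rw [if_neg e, if_neg fun e' => e (add_right_cancel e'), map_inv₀, map_sub, Z.sg_pt, Z.sg_pt]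

end Vale.Agent.P200.H
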