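import Vale.Agent.P200.G.Tay

/-! Taylor expansion at the origin, with diagonal rescalings. -/

open Finset

namespace Vale.Agent.P200.H

open Vale.Agent.P200.G Vale.Agent.P200.Eq

universe u

theorem exists_tay_gen' (L : Type u) [Field L] (V : Type) (K : Type u) [Field K]
    [Algebra (MvPolynomial V L) K] [IsFractionRing (MvPolynomial V L) K] [Algebra L K]
    [IsScalarTower L (MvPolynomial V L) K] (wt : V → ℕ) (hwt : ∀ v, 0 < wt v) :
    ∃ T : Tay L K V, T.wt = wt ∧
      (∀ p : MvPolynomial V L, algebraMap _ K p ∈ T.O ∧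
        ∀ μ, T.ty (algebraMap _ K p) μ = p.coeff μ) ∧
      (∀ f ∈ T.O, T.ty f 0 ≠ 0 → f⁻¹ ∈ T.O) ∧
      (∀ (σ : L →+* L) (ψ : K →+* K), (∀ x, ψ (algebraMap L _ x) = algebraMap L _ (σ x)) →
        (∀ v, ψ (algebraMap (MvPolynomial V L) _ (MvPolynomial.X v)) ∈ T.Fil (wt v)) →
        (∀ m, ∀ f ∈ T.Fil m, ψ f ∈ T.Fil m) ∧ ∀ f ∈ T.O, T.ty (ψ f) 0 = σ (T.ty f 0)) ∧
      ∀ (ψ : K →ₐ[L] K) (t : V → L),
        (∀ v, ψ (algebraMap (MvPolynomial V L) _ (MvPolynomial.X v)) =
          t v • algebraMap (MvPolynomial V L) _ (MvPolynomial.X v)) →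
        ∀ f ∈ T.O, ψ f ∈ T.O ∧ ∀ μ, T.ty (ψ f) μ = (μ.prod fun v m => t v ^ m) * T.ty f μ := by
  classical
  obtain ⟨Ty, hp, hm, hi⟩ := tay_exists L V K
  have hpq : ∀ {f : K} {p q : MvPolynomial V L}, f ∈ tayO L V K →
      f * algebraMap _ K q = algebraMap _ K p → Ty f * q = p := fun {f p q} hf h => by
    rw [← hp, ← hp, ← h, hm f hf _ (tay_poly L V K q)]
  let T : Tay L K V :=
    { wt := wt
      wt_pos := hwt
      O := tayO L V K
      ty := LinearMap.pi fun μ => MvPowerSeries.coeff μ ∘ₗ Ty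
      Fil := fun m =>
        { carrier := {f | f ∈ tayO L V K ∧
            ∀ μ, Finsupp.weight wt μ < m → MvPowerSeries.coeff μ (Ty f) = 0}
          add_mem' := fun ha hb => ⟨add_mem ha.1 hb.1, fun μ hμ => by
            rw [map_add, map_add, ha.2 μ hμ, hb.2 μ hμ, add_zero]⟩
          zero_mem' := ⟨zero_mem _, fun μ _ => by rw [map_zero, map_zero]⟩
          smul_mem' := fun c _ ha => ⟨Subalgebra.smul_mem _ ha.1 c, fun μ hμ => by
            rw [map_smul, map_smul, ha.2 μ hμ, smul_zero]⟩ }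
      mem_Fil := fun _ _ => Iff.rfl
      frac := fun f => by
        obtain ⟨a, b, hb, rfl⟩ := IsFractionRing.div_surjective (A := MvPolynomial V L) f
        have h0 : algebraMap _ K b ≠ 0 :=
          IsFractionRing.to_map_ne_zero_of_mem_nonZeroDivisors hb
        exact ⟨_, tay_poly L V K b, h0, by rw [mul_div_cancel₀ _ h0]; exact tay_poly L V K a⟩
      ty_inj := fun f hf h => hi f hf (MvPowerSeries.ext fun μ => congrFun h μ)
      ty_one := by
        change MvPowerSeries.coeff 0 (Ty 1) = 1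
        rw [← map_one (algebraMap (MvPolynomial V L) K), hp]
        simp
      ty_mul_zero := fun f hf g hg => by
        change MvPowerSeries.constantCoeff (Ty (f * g)) =
          MvPowerSeries.constantCoeff (Ty f) * MvPowerSeries.constantCoeff (Ty g)
        rw [hm f hf g hg, map_mul]
      fil_mul := fun m m' f hf g hg => ⟨mul_mem hf.1 hg.1, fun μ hμ => by
        rw [hm f hf.1 g hg.1]
        exact tay_ord_mul hf.2 hg.2 μ hμ⟩
      ty_mon := fun μ => ⟨_, tay_poly L V K (MvPolynomial.monomial μ 1), by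
        change MvPowerSeries.coeff μ (Ty _) = 1
        rw [hp, MvPolynomial.coeff_coe, MvPolynomial.coeff_monomial, if_pos rfl], fun μ' h => by
        change MvPowerSeries.coeff μ' (Ty _) = 0
        rw [hp, MvPolynomial.coeff_coe, MvPolynomial.coeff_monomial, if_neg h.symm]⟩
      ty_shift := fun v => ⟨_, tay_poly L V K (MvPolynomial.X v), fun f hf μ => by
        change MvPowerSeries.coeff μ (Ty _) ≠ 0 ↔
          ∃ μ', μ = μ' + Finsupp.single v 1 ∧ MvPowerSeries.coeff μ' (Ty f) ≠ 0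
        rw [hm _ (tay_poly L V K _) f hf, hp, MvPolynomial.coe_X, MvPowerSeries.X_def,
          MvPowerSeries.coeff_monomial_mul, one_mul]
        constructor
        · intro h
          split_ifs at h with h1
          · exact ⟨_, (tsub_add_cancel_of_le h1).symm, h⟩
          · exact absurd rfl h
        · rintro ⟨μ', rfl, h⟩
          rwa [if_pos le_add_self, add_tsub_cancel_right]⟩ }
  have hty : ∀ f μ, T.ty f μ = MvPowerSeries.coeff μ (Ty f) := fun _ _ => rfl
  have hinv : ∀ f ∈ T.O, T.ty f 0 ≠ 0 → f⁻¹ ∈ T.O := by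
    intro f hf h0
    obtain ⟨p, q, hq, h⟩ := id hf
    have hf0 : f ≠ 0 := fun h1 => h0 (by rw [h1, map_zero]; rfl)
    refine ⟨q, p, ?_, by rw [← h, inv_mul_cancel_left₀ hf0]⟩
    rw [← tay_cc, ← hpq hf h, map_mul, tay_cc]
    exact mul_ne_zero h0 hq
  refine ⟨T, rfl, fun p => ⟨tay_poly L V K p, fun μ => by rw [hty, hp, MvPolynomial.coeff_coe]⟩,
    hinv, fun σ ψ h1 h2 => ?_, fun ψ t h f hf => ?_⟩
  · have hF : ∀ m, ∀ f ∈ T.Fil m, ψ f ∈ T.Fil m := by
      intro m f hf
      obtain ⟨p, q, hq, h⟩ := id hf.1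
      have a1 : ψ (algebraMap _ K p) ∈ T.Fil m := T.semi_poly h1 h2 fun μ hμ => by
        rw [← MvPolynomial.coeff_coe, ← hpq hf.1 h]
        exact tay_ord_mul (m' := 0) hf.2 (fun _ h => absurd h (Nat.not_lt_zero _)) μ hμ
      obtain ⟨a2, a3⟩ := T.semi_res h1 (f := algebraMap _ K q) (c := MvPolynomial.constantCoeff q)
        (by
          rw [IsScalarTower.algebraMap_apply L (MvPolynomial V L) K, ← map_sub]
          refine T.semi_poly h1 h2 fun μ hμ => ?_
          rw [tay_wt_zero hwt hμ, ← MvPolynomial.constantCoeff_eq]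
          simp)
      have a4 : T.ty (ψ (algebraMap _ K q)) 0 ≠ 0 := by
        rw [a3]
        exact (map_ne_zero σ).2 hq
      have a5 : ψ (algebraMap _ K q) ≠ 0 := fun h1 => a4 (by rw [h1, map_zero]; rfl)
      rw [(eq_mul_inv_iff_mul_eq₀ a5).2 ((map_mul ψ _ _).symm.trans (congrArg ψ h))]
      exact T.fil_mul m 0 _ a1 _ (T.fil_zero.2 (hinv _ a2 a4))
    refine ⟨hF, fun f hf => (T.semi_res h1 (hF 1 _ (T.fil_one.2 ⟨?_, ?_⟩))).2⟩
    · exact T.O.sub_mem hf (T.O.algebraMap_mem _)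
    · rw [map_sub, Pi.sub_apply, T.ty_alg, sub_self]
  · have hs : ∀ p : MvPolynomial V L, ∃ p' : MvPolynomial V L,
        ψ (algebraMap _ K p) = algebraMap _ K p' ∧
          (p' : MvPowerSeries V L) = MvPowerSeries.rescale t p := by
      intro p
      induction p using MvPolynomial.induction_on with
      | C c =>
        refine ⟨MvPolynomial.C c, ?_, ?_⟩
        · rw [← MvPolynomial.algebraMap_eq, ← IsScalarTower.algebraMap_apply, ψ.commutes]
        · rw [MvPolynomial.coe_C]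
          exact ((MvPowerSeries.rescaleAlgHom t).commutes c).symm.trans
            (MvPowerSeries.rescaleAlgHom_apply _ _)
      | add p q hp hq =>
        obtain ⟨p', a, b⟩ := hp
        obtain ⟨q', c, d⟩ := hq
        exact ⟨p' + q', by rw [map_add, map_add, map_add, a, c],
          by rw [MvPolynomial.coe_add, MvPolynomial.coe_add, map_add, b, d]⟩
      | mul_X p v hp =>
        obtain ⟨p', a, b⟩ := hp
        refine ⟨p' * t v • MvPolynomial.X v, ?_, ?_⟩
        · rw [map_mul, map_mul, map_mul, a, h, Algebra.smul_def, Algebra.smul_def, map_mul,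
            ← IsScalarTower.algebraMap_apply]
        · rw [MvPolynomial.coe_mul, MvPolynomial.coe_mul, map_mul, b, MvPolynomial.coe_smul,
            MvPolynomial.coe_X, tay_rescale]
    obtain ⟨p, q, hq, e⟩ := id hf
    obtain ⟨p', a, b⟩ := hs p
    obtain ⟨q', c, d⟩ := hs q
    have hq' : MvPolynomial.constantCoeff q' ≠ 0 := by
      rw [← tay_cc, d, ← MvPowerSeries.coeff_zero_eq_constantCoeff_apply,
        MvPowerSeries.coeff_rescale, Finsupp.prod_zero_index, one_mul,
        MvPowerSeries.coeff_zero_eq_constantCoeff_apply, tay_cc]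
      exact hq
    have e' : ψ f * algebraMap _ K q' = algebraMap _ K p' := by rw [← a, ← c, ← e, map_mul]
    have hO : ψ f ∈ tayO L V K := ⟨p', q', hq', e'⟩
    have hne : (q' : MvPowerSeries V L) ≠ 0 := fun h0 => hq' (by rw [← tay_cc, h0, map_zero])
    have e2 : Ty (ψ f) = MvPowerSeries.rescale t (Ty f) :=
      mul_right_cancel₀ hne (by rw [hpq hO e', b, d, ← map_mul, hpq hf e])
    exact ⟨hO, fun μ => by rw [hty, hty, e2, MvPowerSeries.coeff_rescale]⟩

theorem exists_tay' (L : Type u) [Field L] (V : Type) [Fintype V] (wt : V → ℕ)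
    (hwt : ∀ v, 0 < wt v) :
    ∃ T : Tay L (FractionRing (MvPolynomial V L)) V, T.wt = wt ∧
      (∀ p : MvPolynomial V L, algebraMap _ (FractionRing (MvPolynomial V L)) p ∈ T.O ∧
        ∀ μ, T.ty (algebraMap _ (FractionRing (MvPolynomial V L)) p) μ = p.coeff μ) ∧
      (∀ f ∈ T.O, T.ty f 0 ≠ 0 → f⁻¹ ∈ T.O) ∧
      (∀ (σ : L →+* L) (ψ : FractionRing (MvPolynomial V L) →+* FractionRing (MvPolynomial V L)),
        (∀ x, ψ (algebraMap L _ x) = algebraMap L _ (σ x)) →
        (∀ v, ψ (algebraMap (MvPolynomial V L) _ (MvPolynomial.X v)) ∈ T.Fil (wt v)) →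
        (∀ m, ∀ f ∈ T.Fil m, ψ f ∈ T.Fil m) ∧ ∀ f ∈ T.O, T.ty (ψ f) 0 = σ (T.ty f 0)) ∧
      ∀ (ψ : FractionRing (MvPolynomial V L) →ₐ[L] FractionRing (MvPolynomial V L)) (t : V → L),
        (∀ v, ψ (algebraMap (MvPolynomial V L) _ (MvPolynomial.X v)) =
          t v • algebraMap (MvPolynomial V L) _ (MvPolynomial.X v)) →
        ∀ f ∈ T.O, ψ f ∈ T.O ∧ ∀ μ, T.ty (ψ f) μ = (μ.prod fun v m => t v ^ m) * T.ty f μ :=
  exists_tay_gen' L V _ wt hwt

end Vale.Agent.P200.H
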